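import Crest.Agent.N250.S9.Mem

/-!
Row 250 (helper94): the end of the shrinker is the limit of the solver's family.
-/

set_option autoImplicit false
open Set Complex Metric Filter Topology

noncomputable section

namespace Crest.Agent.N250.S9

open B1 Ra

variable {w : ℝ × ℝ → ℝ} {x₀ C γ x R X K g g' δ : ℝ}

/-- the sum of the majorant -/
def cM : ℝ := ∑' m, maj m

theorem cM_nonneg : 0 ≤ cM := tsum_nonneg fun m => (maj_pos m).le

theorem wb_of {f0 f : ℝ → ℝ} {u : Wi (om Ell.triv)} {D : ℝ}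
    (h0 : ∀ s : II, ‖Wi.co u 0 s‖ ≤ D * f0 (xr R X s))
    (h1 : ∀ m, m ≠ 0 → ∀ s : II, ‖Wi.co u m s‖ ≤ D * maj m * f (xr R X s)) :
    WB R X f0 f u (D * cM) :=
  ⟨fun m => D * maj m, summable_maj.mul_left D, (tsum_mul_left (a := D)).le,
    by simpa [maj_zero] using h0, fun m hm s => by simpa [Ell.triv] using h1 m hm s⟩

theorem rho_ge (hK : 0 ≤ K) (h2 : 2 ≤ x) (hx : x ≤ X) : (X - x) / X ≤ rho K X x := by
  have hX : 0 < X := by linarith
  have h1 : 0 ≤ (x ^ 2 - 2) / X ^ 2 * (2 * K / X ^ 2) :=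
    mul_nonneg (div_nonneg (by nlinarith) (by positivity)) (by positivity)
  have h3 : (x ^ 2 - 2) / X ^ 2 ≤ x / X := by
    rw [div_le_div_iff₀ (by positivity) hX]
    nlinarith [mul_le_mul_of_nonneg_left hx (show 0 ≤ x * X by nlinarith)]
  rw [rho, sub_div, div_self hX.ne']
  linarith

theorem Ex.lt_two (hg : Ex g g') : g < 2 := by obtain ⟨-, h1, h2⟩ := hg; linarith

theorem fn_single {ℓ : Ell} (b : Wi (omP 2)) (h : ℂ) :
    fn g X ((b, Wi.single _ 0 h, 0) : Dat ℓ) = X * ‖h‖ := by simp [fn]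

namespace Rt

variable (h : Rt w x₀ C γ)
include h

theorem pw (hγ : g ≤ γ) (hR : 0 < R) (hx : R ≤ x) (hδ : C * R ^ (g - γ) ≤ δ) :
    C * x ^ (-γ) ≤ δ * x ^ (-g) := by
  have h0 : 0 < x := hR.trans_le hx
  rw [show -γ = g - γ + -g by ring, Real.rpow_add h0, ← mul_assoc]
  refine mul_le_mul_of_nonneg_right (le_trans (mul_le_mul_of_nonneg_left
    (Real.rpow_le_rpow_of_nonpos hR hx (by linarith)) h.C0) hδ) (by positivity)

theorem pw' (hg : 0 ≤ g) (hγ : g ≤ γ) (hR : 1 ≤ R) (hx : R ≤ x) (hδ : C * R ^ (g - γ) ≤ δ) :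
    C * x ^ (-γ) ≤ δ :=
  (h.pw hγ (by linarith) hx hδ).trans (mul_le_of_le_one_right
    (le_trans (mul_nonneg h.C0 (by positivity)) hδ)
    (Real.rpow_le_one_of_one_le_of_nonpos (by linarith) (by linarith)))

section
variable (hg : 0 ≤ g) (hγ : g ≤ γ) (hR : x₀ < R) (h2 : 2 ≤ R) (hδ : C * R ^ (g - γ) ≤ δ)
include hg hγ hR h2 hδ

theorem a_le (hX : R ≤ X) : ‖aS w X‖ * X ^ 2 ≤ 16 * δ :=
  (h.aS_le (hR.trans_le hX) (h2.trans hX)).trans (by linarith [h.pw' hg hγ (by linarith) hX hδ])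

theorem cf0_le (hx : x ∈ Icc R X) (i : Fin 6) : ‖cf w X i 0 x‖ ≤ 20 * δ := by
  have h1 := h.m0 (hR.trans_le hx.1) i 0
  have h3 := h.pw' hg hγ (by linarith) hx.1 hδ
  have h4 := h.a_le hg hγ hR h2 hδ (hx.1.trans hx.2)
  have h5 := mul_le_mul_of_nonneg_left ((pj_le (h2.trans hx.1) i).trans
      (pow_le_pow_left₀ (by linarith [hx.1]) hx.2 2)) (norm_nonneg (aS w X))
  rw [maj_zero] at h1
  refine (norm_sub_le _ _).trans ?_
  rw [if_pos rfl, norm_mul]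
  linarith

theorem cf1_le (hx : x ∈ Icc R X) : x * ‖cf w X 1 0 x‖ ≤ 24 * δ := by
  have h0 : 0 ≤ x := by linarith [hx.1]
  have h1 := h.m1 (hR.trans_le hx.1) h0 0
  have h3 := h.pw' hg hγ (by linarith) hx.1 hδ
  have h4 := h.a_le hg hγ hR h2 hδ (hx.1.trans hx.2)
  have h5 := mul_le_mul_of_nonneg_left (pow_le_pow_left₀ h0 hx.2 2) (norm_nonneg (aS w X))
  have h6 : ‖cf w X 1 0 x‖ ≤ ‖fc (cs (jw w 1) x) 0‖ + ‖aS w X‖ * x := by
    refine (norm_sub_le _ _).trans ?_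
    simp [pj, abs_of_nonneg h0]
  simp only [maj_zero, Int.cast_zero, abs_zero, add_zero, one_mul, mul_one] at h1
  nlinarith [mul_le_mul_of_nonneg_left h6 h0]

theorem cf00_le (hK : 0 ≤ K) (hx : x ∈ Icc R X) : ‖cf w X 0 0 x‖ ≤ 48 * δ * rho K X x := by
  have h0 : 0 < x := by linarith [hx.1]
  have hX : 0 < X := h0.trans_le hx.2
  have hd : 0 ≤ δ := le_trans (mul_nonneg h.C0 (by positivity)) hδ
  refine le_trans ?_ (mul_le_mul_of_nonneg_left (rho_ge hK (h2.trans hx.1) hx.2) (by positivity))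
  rcases le_total x (X / 2) with h1 | h1
  · have : 1 / 2 ≤ (X - x) / X := by rw [le_div_iff₀ hX]; linarith
    nlinarith [h.cf0_le hg hγ hR h2 hδ hx 0]
  · have e : cf w X 0 0 X = 0 := by
      have : ((X : ℂ) ^ 2 - 2) / 2 ≠ 0 := by
        have : (X ^ 2 - 2) / 2 ≠ 0 := by nlinarith [hx.1, hx.2]
        exact_mod_cast this
      simp only [cf, aS, if_true, pj, jw, Matrix.cons_val_zero]
      rw [div_mul_cancel₀ _ this, sub_self]
    have := (convex_Icc x X).norm_image_sub_le_of_norm_hasDerivWithin_le (f := cf w X 0 0)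
      (f' := cf w X 1 0) (C := 48 * δ / X)
      (fun y hy => (h.d0 (hR.trans_le (hx.1.trans hy.1)) 0).hasDerivWithinAt)
      (fun y hy => by
        rw [le_div_iff₀ hX]
        nlinarith [h.cf1_le hg hγ hR h2 hδ ⟨hx.1.trans hy.1, hy.2⟩, norm_nonneg (cf w X 1 0 y), hy.1])
      (left_mem_Icc.2 hx.2) (right_mem_Icc.2 hx.2)
    rw [e, zero_sub, norm_neg, Real.norm_of_nonneg (by linarith [hx.2])] at this
    exact this.trans (le_of_eq (by ring))

end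

/-- the jet lies in a small ball -/
theorem inB (hg : Ex g g') (hγ : g ≤ γ) (hR : x₀ < R) (h2 : 2 ≤ R) (hδ : C * R ^ (g - γ) ≤ δ)
    (hδ' : 32 * δ ≤ 1) (hK : 0 ≤ K) (hX : R + 2 ≤ X) {J : Jt Ell.triv}
    (hJ : ∀ i m s, Wi.co (J i) m s = cf w X i m (xr R X s)) :
    InB R K g g' X (aS w X) (48 * δ * cM) J := by
  have g0 : 0 ≤ g := by linarith [hg.1]
  have hd : 0 ≤ δ := le_trans (mul_nonneg h.C0 (by positivity)) hδ
  have ha : ‖aS w X‖ * X ^ 2 ≤ 1 / 2 := by linarith [h.a_le g0 hγ hR h2 hδ (X := X) (by linarith)]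
  have hx := xr_mem' hX
  have x2 := fun s => h2.trans (hx s).1
  have hW := fun s => W_ge hg (x2 s) (hx s).2 ha
  have hη := fun s => (et_near (x2 s) (hx s).2 ha).2
  have hp := fun s => h.pw hγ (by linarith) (hx s).1 hδ
  have p0 : ∀ s : II, 0 < xr R X s ^ (-g) := fun s => by have := x2 s; positivity
  have k0 : ∀ i (s : II), ‖Wi.co (J i) 0 s‖ ≤ 48 * δ * 1 := fun i s => by
    rw [hJ]; linarith [h.cf0_le g0 hγ hR h2 hδ (hx s) i]
  have k1 : ∀ i m, m ≠ 0 → ∀ (s : II) (F : ℝ), xr R X s ^ (-g) / 12 ≤ F →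
      ‖Wi.co (J i) m s‖ ≤ 48 * δ * maj m * F := fun i m hm s F hF => by
    rw [hJ, cf_ne hm]
    have := maj_pos m
    calc _ ≤ _ := h.m0 (hR.trans_le (hx s).1) i m
      _ ≤ 4 * (δ * xr R X s ^ (-g)) * maj m := by have := hp s; gcongr
      _ = 48 * δ * maj m * (xr R X s ^ (-g) / 12) := by ring
      _ ≤ _ := by gcongr
  refine ⟨wb_of (fun s => hJ 0 0 s ▸ h.cf00_le g0 hγ hR h2 hδ hK (hx s))
      fun m hm s => k1 0 m hm s _ (by linarith [hW s, p0 s]),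
    wb_of (fun s => ?_) fun m hm s => ?_,
    wb_of (k0 2) fun m hm s => k1 2 m hm s _ ?_,
    wb_of (k0 3) fun m hm s => k1 3 m hm s _ (by linarith [hW s, p0 s]),
    wb_of (k0 4) fun m hm s => k1 4 m hm s _ (by nlinarith [hW s, p0 s, x2 s]),
    wb_of (k0 5) fun m hm s => k1 5 m hm s _ (by linarith [hW s, p0 s])⟩
  · rw [hJ, ← div_eq_mul_inv, le_div_iff₀ (by linarith [x2 s])]
    linarith [h.cf1_le g0 hγ hR h2 hδ (hx s)]
  · have h1 := h.m1 (hR.trans_le (hx s).1) (by linarith [x2 s]) m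
    have h3 := maj_pos m
    have h4 := x2 s
    have h5 := hη s
    rw [hJ, cf_ne hm, ← mul_div_assoc, le_div_iff₀ (by nlinarith)]
    set N := ‖fc (cs (jw w 1) (xr R X s)) m‖
    have h6 : 0 ≤ xr R X s * N := by positivity
    have h7 : xr R X s * N ≤ 8 * (δ * xr R X s ^ (-g)) * maj m := by
      have := mul_le_mul_of_nonneg_right (hp s) h3.le
      nlinarith [mul_nonneg h6 (abs_nonneg (m : ℝ))]
    have h8 := mul_le_mul_of_nonneg_left (hW s) (mul_nonneg hd h3.le)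
    nlinarith [mul_le_mul_of_nonneg_left h5.2 h6, mul_nonneg (mul_nonneg hd h3.le) (p0 s).le]
  · rw [le_div_iff₀ (by linarith [(hη s).1])]
    nlinarith [hW s, p0 s, (hη s).2]

/-- the far data are small -/
theorem fn_le (hg : 0 ≤ g) (hγ : g ≤ γ) (hX : x₀ < X) (h2 : 2 ≤ X) (b : Wi (omP 2))
    {H : Wi (omF Ell.triv)} (hH : ∀ m, Wi.co H m = cf w X 1 m X) :
    fn g X (b, H, fc (cs w X) 1, fc (cs w X) (-1)) ≤ (48 + 24 * cM) * (C * X ^ (g - γ)) := by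
  have h0 : 0 < X := by linarith
  have hc : 0 ≤ C * X ^ (-γ) := by have := h.C0; positivity
  have h1 := h.cf1_le hg hγ hX h2 le_rfl (X := X) (left_mem_Icc.2 le_rfl)
  have h3 : ‖H - Wi.single _ 0 (Wi.co H 0)‖ ≤ 8 * (C * X ^ (-γ)) / X * cM :=
    Wi.norm_le_of (summable_maj.hasSum.mul_left _) fun m => by
      rw [Wi.co_sub, Wi.co_single]
      split_ifs with hm
      · rw [hm, sub_self, mul_zero, norm_zero, maj_zero]; positivity
      · rw [sub_zero, hH]; exact h.far_le hX h2 hm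
  have h4 : ∀ m, ‖fc (cs w X) m‖ ≤ 4 * (C * X ^ (-γ)) := fun m =>
    (h.m0 hX 0 m).trans (mul_le_of_le_one_right (by positivity) (by
      rw [maj, div_le_one (by positivity)]; nlinarith [sq_nonneg (m : ℝ)]))
  have h5 : X * ‖H - Wi.single _ 0 (Wi.co H 0)‖ ≤ 8 * (C * X ^ (-γ)) * cM :=
    (mul_le_mul_of_nonneg_left h3 h0.le).trans (le_of_eq (by field_simp))
  have e : C * X ^ (g - γ) = X ^ g * (C * X ^ (-γ)) := by
    rw [sub_eq_add_neg, Real.rpow_add h0]; ring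
  have h6 : 0 < X ^ g := by positivity
  have h7 := mul_le_mul_of_nonneg_left (add_le_add (add_le_add h5 (h4 1)) (h4 (-1))) h6.le
  simp only [fn, hH 0] at h7 ⊢
  rw [e] at h1 ⊢
  nlinarith

theorem b_le' (hR : x₀ < R) (h0 : 0 < R) {b : Wi (omP 2)} (hb : ∀ m, Wi.co b m = fc (cs w R) m) :
    R ^ g * ‖b‖ ≤ 16 * cM * (C * R ^ (g - γ)) := by
  refine (mul_le_mul_of_nonneg_left (h.b_le hR hb) (by positivity)).trans (le_of_eq ?_)
  rw [sub_eq_add_neg, Real.rpow_add h0, cM]; ring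

omit h in
theorem ev (hγ : g < γ) (A : ℝ) {t : ℝ} (ht : 0 < t) :
    ∀ᶠ x : ℝ in atTop, A * (C * x ^ (g - γ)) < t := by
  have := ((tendsto_rpow_neg_atTop (sub_pos.2 hγ)).const_mul C).const_mul A
  rw [neg_sub, mul_zero, mul_zero] at this
  exact this.eventually (gt_mem_nhds ht)

/-- **membership**: the decaying solution is a member of the family for the trivial symbol -/
theorem mem {ε ε1 B : ℝ} (hg : Ex g g') (hγ : g < γ) (hε : 0 < ε) (hε1 : 0 < ε1) :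
    ∀ᶠ R in atTop, ∀ b : Wi (omP 2), (∀ m, Wi.co b m = fc (cs w R) m) → R ^ g * ‖b‖ < ε / 2 ∧
      ∀ K, 0 ≤ K → ∀ U, IsEnd R K g g' ε ε1 B Ell.triv U → ∀ t > 0, ∀ᶠ X : ℝ in atTop,
        ∃ F, fn g X (b, F) < t ∧ ‖aS w X‖ * X ^ 2 < t ∧
          ∀ i m s, Wi.co (U (X, aS w X, b, F) i) m s = cf w X i m (xr R X s) := by
  have g0 : 0 ≤ g := by linarith [hg.1]
  filter_upwards [eventually_gt_atTop x₀, eventually_ge_atTop 2, ev (C := C) hγ 32 one_pos,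
    ev (C := C) hγ (48 * cM) hε1, ev (C := C) hγ (16 * cM) (half_pos hε)] with R r1 r2 r3 r4 r5 b hb
  have hb' := (h.b_le' (g := g) r1 (by linarith) hb).trans_lt r5
  refine ⟨hb', fun K hK U hU t ht => ?_⟩
  filter_upwards [eventually_gt_atTop (2 * R + 4), eventually_gt_atTop (2 * √K),
    ev (C := C) hγ (48 + 24 * cM) (lt_min ht (half_pos hε)), ev (C := C) hγ 16 ht] with X x1 x2 x3 x4
  obtain ⟨J, hJ⟩ := h.exists_J (X := X) r1 r2 (by linarith)
  obtain ⟨H, hH⟩ := h.exists_H (X := X) (by linarith) (by linarith)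
  have f1 := (h.fn_le g0 hγ.le (X := X) (by linarith) (by linarith) b hH).trans_lt x3
  refine ⟨(H, _, _), f1.trans_le (min_le_left _ _), (h.a_le g0 hγ.le (R := X) (by linarith)
    (by linarith) le_rfl le_rfl).trans_lt x4, ?_⟩
  rw [← hU.uniq _ (dom_of hg (by linarith) hK x1 x2
    (by linarith [h.a_le g0 hγ.le r1 r2 le_rfl (X := X) (by linarith)])
    (by linarith [f1.trans_le (min_le_right _ _)])) J (h.sol r1 r2 (by linarith) hJ hb hH)
    (Cj.inB_mono (h.inB (X := X) hg hγ.le r1 r2 le_rfl r3.le hK (by linarith) hJ) (by linarith))]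
  exact hJ

end Rt

/-- the parameter with far slope `h` in the mode `0` only -/
def zq (ℓ : Ell) (X a h : ℂ) (b : Wi (omP 2)) : Par ℓ := (X, a, b, Wi.single _ 0 h, 0, 0)

theorem cP_zq {ℓ ℓ' : Ell} (hl : Le ℓ' ℓ) (X a h : ℂ) (b : Wi (omP 2)) :
    cP hl (zq ℓ X a h b) = zq ℓ' X a h b := by simp [cP, zq, cF_single]

/-- **identification**, abstract form -/
theorem Rt.ident (h : Rt w x₀ C γ) {ε ε1 B : ℝ} (hg : Ex g g') (hγ : g < γ) (hε : 0 < ε)
    (hε1 : 0 < ε1) (hB : 0 ≤ B) :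
    ∀ᶠ R in atTop, ∀ b : Wi (omP 2), (∀ m, Wi.co b m = fc (cs w R) m) → R ^ g * ‖b‖ < ε / 2 ∧
      ∀ K, 1 ≤ K → B * (3 / K + ε) ≤ ε1 → ∀ ℓ U U0, IsEnd R K g g' ε ε1 B ℓ U →
        IsEnd R K g g' ε ε1 B Ell.triv U0 → ∀ t > 0, ∃ δ > 0, ∀ᶠ X : ℝ in atTop, ∀ a h : ℂ,
          ‖a‖ * X ^ 2 ≤ δ → X * ‖h‖ ≤ δ → zq ℓ X a h b ∈ Dom R K g g' ε ∧ ∀ s θ i,
            ‖vj R X a (U (zq ℓ X a h b)) s θ i -
              ((if i = 0 then 1 else 0) + jw w i (xr R X s, θ))‖ ≤ t := by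
  filter_upwards [h.mem (B := B) hg hγ hε hε1, eventually_gt_atTop x₀, eventually_ge_atTop 2] with R hm
    r1 r2 b hb
  obtain ⟨hb', hm⟩ := hm b hb
  refine ⟨hb', fun K hK hB' ℓ U U0 hU hU0 t ht => ?_⟩
  obtain ⟨ρ, hρ, hρ'⟩ : ∃ ρ : ℝ, 1 < ρ ∧ (24 * ε1 + 1) / ρ ≤ t :=
    ⟨2 + (24 * ε1 + 1) / t, by have : 0 < (24 * ε1 + 1) / t := by positivity
                               linarith, by
      rw [div_le_iff₀ (by positivity), mul_add, mul_div_cancel₀ _ ht.ne']; linarith⟩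
  have ρ0 : 0 < ρ := by linarith
  have d0 : 0 < min 1 ε / 2 / ρ := by positivity
  have d1 : ∀ {y}, y ≤ min 1 ε / 2 / ρ → ρ * y ≤ 1 / 2 ∧ ρ * y ≤ ε / 2 := fun hy => by
    rw [le_div_iff₀ ρ0] at hy
    constructor <;> linarith [min_le_left 1 ε, min_le_right 1 ε]
  refine ⟨_, d0, ?_⟩
  filter_upwards [hm K (by linarith) U0 hU0 _ d0, eventually_gt_atTop (2 * R + 4),
    eventually_gt_atTop (2 * √K)] with X ⟨F, f1, f2, f3⟩ x1 x2 a k ha hk
  have a0 : 0 ≤ ‖a‖ * X ^ 2 := by positivity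
  have k0 : 0 ≤ X * ‖k‖ := mul_nonneg (by linarith) (norm_nonneg _)
  have hz : zq ℓ X a k b ∈ Dom R K g g' ε := dom_of hg (by linarith) (by linarith) x1 x2
    (by nlinarith [(d1 ha).1]) (by
      have := fn_single (g := g) (X := X) (ℓ := ℓ) b k
      exact lt_of_lt_of_le (add_lt_add_of_lt_of_le hb' this.le) (by nlinarith [(d1 hk).2]))
  refine ⟨hz, fun s θ i => ?_⟩
  have s1 := schwarz hU0 hg r2 hK hB hB' x1 x2 hb' (F := (Wi.single _ 0 k, 0)) hρ (d1 ha).1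
    (by rw [fn_single]; exact (d1 hk).2)
  have s2 := schwarz hU0 hg r2 hK hB hB' x1 x2 hb' hρ (d1 f2.le).1 (d1 f1.le).2
  rw [norm_sub_rev] at s2
  have s3 := (norm_sub_le_norm_sub_add_norm_sub _ _ _).trans (add_le_add s1 s2)
  have hx := xr_mem' (R := R) (X0 := X) (by linarith) s
  rw [← vj_cJ (triv_le ℓ), end_cast (triv_le ℓ) hU hU0 r2 hK hB hB' hz, cP_zq,
    ← h.vj_J r1 (by linarith) f3, vj_eq, vj_eq, gam_real]
  set J1 := U0 (zq Ell.triv X a k b)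
  set J2 := U0 (X, aS w X, b, F)
  have e : val (J1 i) s θ - val (J2 i) s θ = Wi.syn ((J1 - J2) i) θ s := by
    rw [← Wi.ev_apply, Pi.sub_apply, map_sub]; rfl
  have s4 : ‖val (J1 i) s θ - val (J2 i) s θ‖ ≤ 12 * ε1 / ρ + 12 * ε1 / ρ := by
    rw [e]
    exact (((ContinuousMap.norm_coe_le_norm _ s).trans (Wi.norm_syn_le _ θ)).trans
      (norm_le_pi_norm _ i)).trans s3
  have s5 := (pj_le (r2.trans hx.1) i).trans (pow_le_pow_left₀ (by linarith [hx.1]) hx.2 2)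
  have s6 : ‖(a - aS w X) * pj (xr R X s : ℝ) i‖ ≤ 1 / ρ := by
    rw [norm_mul, le_div_iff₀ ρ0]
    have := mul_le_mul (norm_sub_le a (aS w X)) s5 (norm_nonneg _) (by positivity)
    nlinarith [(d1 ha).1, (d1 f2.le).1]
  calc _ = ‖(a - aS w X) * pj (xr R X s : ℝ) i + (val (J1 i) s θ - val (J2 i) s θ)‖ := by
        congr 1; ring
    _ ≤ 1 / ρ + (12 * ε1 / ρ + 12 * ε1 / ρ) := (norm_add_le _ _).trans (add_le_add s6 s4)
    _ = (24 * ε1 + 1) / ρ := by ring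
    _ ≤ t := hρ'

/-! ### the ends of a shrinker -/

variable {S : Mv}

/-- `v = r² / 2` on the end `j` -/
def vS (e : Ends S) (j : Fin e.p) (q : ℝ × ℝ) : ℝ := e.r j q ^ 2 / 2

/-- its jets `(v, v_x, v_xx, v_θ, v_xθ, v_θθ)` -/
def jS (e : Ends S) (j : Fin e.p) (q : ℝ × ℝ) (i : Fin 6) : ℂ := jw (vS e j) i q

theorem jS_eq (e : Ends S) (j : Fin e.p) (q : ℝ × ℝ) (i : Fin 6) :
    jS e j q i = (if i = 0 then 1 else 0) + jw (wE e j) i q := by
  have e1 : ∀ u, dd u (wE e j) = dd u (vS e j) := fun u => dd_sub_one u _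
  fin_cases i <;> simp [jS, jw, e1]
  simp [vS, wE]

theorem exists_rt (hS : S.IsShr) (e : Ends S) (j : Fin e.p) (h0 : 0 ≤ γ) (h2 : γ < 2) :
    ∃ x₀ C, Rt (wE e j) x₀ C γ := by
  obtain ⟨C, x₀, hC, -, hx, h⟩ := ends_rate2 hS e j h0 h2 4
  have e1 : ∀ u, dd u (wE e j) = dd u fun q => e.r j q ^ 2 / 2 := fun u => dd_sub_one u _
  refine ⟨x₀, C, fun q hq => sm_wE e j q (hx.trans hq), per_wE e j, hC.le, h0,
    fun i hi q hq => (h i hi q hq.le).1, fun i hi q hq => (h i hi q hq.le).2, fun q hq => ?_⟩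
  have := Po.ends_EL hS e j (hx.trans hq)
  simp only [jw, e1, wE, add_sub_cancel]
  exact this

open Classical in
/-- the Dirichlet datum of the end on the circle `x = R` -/
def b0 (e : Ends S) (j : Fin e.p) (R : ℝ) : Wi (omP 2) :=
  if h : Summable fun m => ‖(omP 2).w m * fc (cs (wE e j) R) m‖ then Wi.mk _ _ h else 0

theorem co_b0 (e : Ends S) (j : Fin e.p) (hR : e.R < R) (m : ℤ) :
    Wi.co (b0 e j R) m = fc (cs (wE e j) R) m := by
  have hc : ∀ i : ℕ, ∃ M, ∀ θ, ‖iteratedFDeriv ℝ i (wE e j) (R, θ)‖ ≤ M := fun i => by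
    have h1 : Continuous fun θ => iteratedFDeriv ℝ i (wE e j) (R, θ) :=
      continuous_iff_continuousAt.2 fun θ => ContinuousAt.comp (f := fun θ => (R, θ))
        ((sm_wE e j (R, θ) hR).iteratedFDeriv_right (m := 0) (by exact_mod_cast le_top)).continuousAt
        (by fun_prop)
    exact (Function.Periodic.isBounded_of_continuous (fun θ => (per_wE e j).jet i R θ)
      (by positivity) h1).exists_norm_le.imp fun M hM θ => hM _ ⟨θ, rfl⟩
  choose M hM using hc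
  rw [b0, dif_pos, Wi.co_mk]
  refine .of_nonneg_of_le (fun _ => norm_nonneg _) (fun m => ?_)
    (summable_maj.mul_left (2 ^ (2 + 2) * ∑ i ∈ Finset.range 5, |M i|))
  rw [omP_w, norm_mul, norm_real, Real.norm_of_nonneg (by positivity)]
  exact decay (sm_wE e j) (per_wE e j) hR 2 (fun i hi θ => ((hM i θ).trans (le_abs_self _)).trans
    (Finset.single_le_sum (f := fun i => |M i|) (fun _ _ => abs_nonneg _)
      (Finset.mem_range.2 (by omega)))) m

theorem syn_b0 (e : Ends S) (j : Fin e.p) (hR : e.R < R) (θ : ℝ) :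
    Wi.syn (b0 e j R) θ = vS e j (R, θ) - 1 := by
  have h1 := (Wi.summable_co (b0 e j R)).of_norm
  have h2 := Wi.hasSum_syn (b0 e j R) θ
  simp only [funext (co_b0 e j hR), smul_eq_mul, mul_comm (Wi.ex _ θ)] at h1 h2
  rw [h2.unique (fc_hasSum ((per_wE e j).cs R) ((sm_wE e j).cont hR) h1 θ)]
  simp [cs, wE, vS]

/-- the datum is small -/
theorem b0_le (hS : S.IsShr) (e : Ends S) (j : Fin e.p) (hg : g < 2) {t : ℝ} (ht : 0 < t) :
    ∀ᶠ R in atTop, R ^ g * ‖b0 e j R‖ < t := by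
  obtain ⟨γ, h0, h1, h2⟩ : ∃ γ, 0 ≤ γ ∧ g < γ ∧ γ < 2 := ⟨(max g 0 + 2) / 2, by positivity,
    by linarith [le_max_left g 0], by linarith [max_lt hg two_pos]⟩
  obtain ⟨x₀, C, h⟩ := exists_rt hS e j h0 h2
  filter_upwards [eventually_gt_atTop x₀, eventually_gt_atTop e.R, eventually_gt_atTop (0 : ℝ),
    Rt.ev (C := C) h1 (16 * cM) ht] with R r1 r2 r3 r4
  exact (h.b_le' r1 r3 (co_b0 e j r2)).trans_lt r4

/-- **identification of the end of `S`** with the limit of the solver's family -/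
theorem ident (hS : S.IsShr) (e : Ends S) (j : Fin e.p) {ε ε1 B : ℝ} (hg : Ex g g') (hε : 0 < ε)
    (hε1 : 0 < ε1) (hB : 0 ≤ B) :
    ∀ᶠ R in atTop, R ^ g * ‖b0 e j R‖ < ε / 2 ∧
      ∀ K, 1 ≤ K → B * (3 / K + ε) ≤ ε1 → ∀ ℓ U U0, IsEnd R K g g' ε ε1 B ℓ U →
        IsEnd R K g g' ε ε1 B Ell.triv U0 → ∀ t > 0, ∃ δ > 0, ∀ᶠ X : ℝ in atTop, ∀ a h : ℂ,
          ‖a‖ * X ^ 2 ≤ δ → X * ‖h‖ ≤ δ → zq ℓ X a h (b0 e j R) ∈ Dom R K g g' ε ∧ ∀ s θ i,
            ‖vj R X a (U (zq ℓ X a h (b0 e j R))) s θ i - jS e j (xr R X s, θ) i‖ ≤ t := by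
  have := Ex.lt_two hg
  obtain ⟨x₀, C, h⟩ := exists_rt hS e j (γ := (g + 2) / 2) (by linarith [hg.1]) (by linarith)
  filter_upwards [h.ident hg (by linarith) hε hε1 hB, eventually_gt_atTop e.R] with R hR r1
  simpa only [jS_eq] using hR _ (co_b0 e j r1)

end Crest.Agent.N250.S9

end
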