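import Crest.Agent.N250.B1.Conj
import Crest.Agent.N250.B1.Reg
import Crest.Agent.N250.B1.End0
import Crest.Agent.N250.B1.Gam
import Crest.Agent.N250.H.Hol

/-!
Row 250 (helper94): change of the symbol, size of the ball, Schwarz lemma in the easy regime.
-/

set_option autoImplicit false
open Set Complex Metric

noncomputable section

namespace Crest.Agent.N250.S9

open B1

variable {ℓ ℓ' : Ell} {R K g g' ε ε1 C X M : ℝ} {a : ℂ}

/-- comparison of symbols -/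
def Le (ℓ' ℓ : Ell) : Prop := ∀ m, ℓ'.l m ≤ ℓ.l m

theorem triv_le (ℓ : Ell) : Le Ell.triv ℓ := ℓ.nonneg

theorem om_bd (h : Le ℓ' ℓ) (m : ℤ) : ‖(om ℓ').w m * (om ℓ).wi m‖ ≤ 1 := by
  show ‖eW _ * eW _‖ ≤ 1
  rw [eW_mul]; exact norm_eW_le (by linarith [h m])

theorem omF_w (ℓ : Ell) (m : ℤ) :
    (omF ℓ).w m = (((1 + |(m : ℝ)|) * Real.exp (ℓ.l m) : ℝ) : ℂ) := rfl

theorem omP_w (k : ℕ) (m : ℤ) : (omP k).w m = (((1 + |(m : ℝ)|) ^ k : ℝ) : ℂ) := rfl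

theorem omF_bd (h : Le ℓ' ℓ) (m : ℤ) : ‖(omF ℓ').w m * (omF ℓ).wi m‖ ≤ 1 := by
  show ‖(((1 + |(m : ℝ)|) * Real.exp (ℓ'.l m) : ℝ) : ℂ) *
    ((((1 + |(m : ℝ)|) * Real.exp (ℓ.l m) : ℝ) : ℂ))⁻¹‖ ≤ 1
  have h1 : 0 < 1 + |(m : ℝ)| := by positivity
  rw [← ofReal_inv, ← ofReal_mul, norm_real, Real.norm_of_nonneg (by positivity),
    ← div_eq_mul_inv, div_le_one (by positivity)]
  exact mul_le_mul_of_nonneg_left (Real.exp_le_exp.2 (h m)) h1.le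

/-- forgetting part of the weight -/
def cW (h : Le ℓ' ℓ) : Wi (om ℓ) →A[ℂ] Wi (om ℓ') := Nl.tr (om_bd h)

/-- the same for the far slopes -/
def cF (h : Le ℓ' ℓ) : Wi (omF ℓ) →A[ℂ] Wi (omF ℓ') := Nl.tr (omF_bd h)

/-- for jets -/
def cJ (h : Le ℓ' ℓ) (J : Jt ℓ) : Jt ℓ' := fun i => cW h (J i)

/-- for parameters -/
def cP (h : Le ℓ' ℓ) (z : Par ℓ) : Par ℓ' := (z.1, z.2.1, z.2.2.1, cF h z.2.2.2.1, z.2.2.2.2)

@[simp] theorem co_cW (h : Le ℓ' ℓ) (u : Wi (om ℓ)) (m : ℤ) : Wi.co (cW h u) m = Wi.co u m :=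
  Nl.co_tr _ _ _

@[simp] theorem co_cF (h : Le ℓ' ℓ) (u : Wi (omF ℓ)) (m : ℤ) : Wi.co (cF h u) m = Wi.co u m :=
  Nl.co_tr _ _ _

@[simp] theorem co_cJ (h : Le ℓ' ℓ) (J : Jt ℓ) (i : Fin 6) (m : ℤ) :
    Wi.co (cJ h J i) m = Wi.co (J i) m := co_cW _ _ _

@[simp] theorem val_cJ (h : Le ℓ' ℓ) (J : Jt ℓ) (i : Fin 6) (s : II) (θ : ℝ) :
    val (cJ h J i) s θ = val (J i) s θ := by
  rw [val, val, cJ, cW, Nl.syn_tr]

theorem vj_cJ (h : Le ℓ' ℓ) (X a : ℂ) (J : Jt ℓ) : vj R X a (cJ h J) = vj R X a J := by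
  funext s θ; simp [vj]

theorem cF_single (h : Le ℓ' ℓ) (k : ℤ) (c : ℂ) : cF h (Wi.single _ k c) = Wi.single _ k c :=
  Wi.ext fun m => by rw [co_cF, Wi.co_single, Wi.co_single]

theorem norm_cF (h : Le ℓ' ℓ) (u : Wi (omF ℓ)) : ‖cF h u‖ ≤ ‖u‖ :=
  (Nl.norm_tr_le (omF_bd h) u).trans (one_mul _).le

theorem sol_cast (h : Le ℓ' ℓ) {z : Par ℓ} {J : Jt ℓ} (hs : Sol R z J) : Sol R (cP h z) (cJ h J) where
  jet := ⟨fun m => by simpa [cP] using hs.jet.d0 m, fun m => by simpa [cP] using hs.jet.d1 m,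
    fun m => by simpa using hs.jet.t0 m, fun m => by simpa using hs.jet.t1 m,
    fun m => by simpa using hs.jet.t2 m⟩
  bc := ⟨fun m hm => by simpa [cP] using hs.bc.inner m hm, fun m => by simpa [cP] using hs.bc.slope m,
    by simpa using hs.bc.far0, by simpa [cP] using hs.bc.farp, by simpa [cP] using hs.bc.farm⟩
  eq s θ := by rw [vj_cJ]; exact hs.eq s θ

theorem wb_cast (h : Le ℓ' ℓ) {f0 f : ℝ → ℝ} {u : Wi (om ℓ)} (hu : WB R X f0 f u M) :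
    WB R X f0 f (cW h u) M := by
  obtain ⟨β, h1, h2, h3, h4⟩ := hu
  refine ⟨β, h1, h2, by simpa using h3, fun m hm s => le_trans ?_ (h4 m hm s)⟩
  rw [co_cW]
  exact mul_le_mul_of_nonneg_right (Real.exp_le_exp.2 (mul_le_mul_of_nonneg_left (h m)
    (sig_nonneg (by have := s.2.1; positivity)))) (norm_nonneg _)

theorem inB_cast (h : Le ℓ' ℓ) {J : Jt ℓ} (hJ : InB R K g g' X a M J) :
    InB R K g g' X a M (cJ h J) :=
  ⟨wb_cast h hJ.b0, wb_cast h hJ.b1, wb_cast h hJ.b2, wb_cast h hJ.b3, wb_cast h hJ.b4,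
    wb_cast h hJ.b5⟩

theorem dom_cast (h : Le ℓ' ℓ) (hR : 2 ≤ R) (hK : 1 ≤ K) {z : Par ℓ} (hz : z ∈ Dom R K g g' ε) :
    cP h z ∈ Dom R K g g' ε := by
  have p := Rg.pt_of_dom hR hK hz i1
  rw [xr_i1] at p
  obtain ⟨h1, h2, h3, h4, h5⟩ := hz
  refine ⟨h1, h2, h3, h4, lt_of_le_of_lt ?_ h5⟩
  have e : cF h z.2.2.2.1 - Wi.single _ 0 (Wi.co z.2.2.2.1 0) =
      cF h (z.2.2.2.1 - Wi.single _ 0 (Wi.co z.2.2.2.1 0)) := by rw [map_sub, cF_single]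
  simp only [dn, cP, co_cF, e]
  have := p.W_pos g g'
  have := p.re_pos
  have := p.X_pos
  have := norm_cF h (z.2.2.2.1 - Wi.single _ 0 (Wi.co z.2.2.2.1 0))
  gcongr

/-- the families for two symbols agree -/
theorem end_cast (h : Le ℓ' ℓ) {U : Par ℓ → Jt ℓ} {U' : Par ℓ' → Jt ℓ'}
    (hU : IsEnd R K g g' ε ε1 C ℓ U) (hU' : IsEnd R K g g' ε ε1 C ℓ' U') (hR : 2 ≤ R) (hK : 1 ≤ K)
    (hC : 0 ≤ C) (h1 : C * (3 / K + ε) ≤ ε1) {z : Par ℓ} (hz : z ∈ Dom R K g g' ε) :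
    cJ h (U z) = U' (cP h z) :=
  hU'.uniq _ (dom_cast h hR hK hz) _ (sol_cast h (hU.sol z hz))
    (inB_cast h (Cj.inB_of hU (by linarith) hC h1 hz))

theorem xW_le {x : ℝ} (hg : Ex g g') (p : Rg.Pt K X a x) : x * W g g' a x ≤ 6 := by
  obtain ⟨b1, b2, b3⟩ := Rg.Ex.bounds hg
  have hx := p.x_pos
  have h1 : x * x ^ (-g) ≤ 1 := by
    rw [mul_comm, ← Real.rpow_add_one hx.ne']
    exact Real.rpow_le_one_of_one_le_of_nonpos (by linarith [p.x2]) (by linarith)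
  have h2 : ‖et a x‖ ^ g' ≤ 6 :=
    calc _ ≤ (9 / 4 : ℝ) ^ g' := Real.rpow_le_rpow (norm_nonneg _) p.norm_le (by linarith)
      _ ≤ (9 / 4 : ℝ) ^ (2 : ℝ) := Real.rpow_le_rpow_of_exponent_le (by norm_num) b3
      _ ≤ 6 := by rw [Real.rpow_two]; norm_num
  rw [W, ← mul_assoc]
  exact (mul_le_mul h1 h2 (by positivity) zero_le_one).trans (by norm_num)

/-- the ball is bounded in the Banach space of jets -/
theorem inB_norm {z : Par ℓ} {J : Jt ℓ} (hg : Ex g g') (hR : 2 ≤ R) (hK : 1 ≤ K)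
    (hz : z ∈ Dom R K g g' ε) (hJ : InB R K g g' z.1.re z.2.1 M J) : ‖J‖ ≤ 6 * M := by
  have p := Rg.pt_of_dom hR hK hz
  obtain ⟨b1, b2, b3⟩ := Rg.Ex.bounds hg
  have w0 := fun s => (p s).W_pos g g'
  have n0 := fun s => (p s).norm_pos
  have x0 := fun s => (p s).x_pos
  have x1 : ∀ s : II, (xr R z.1.re s)⁻¹ ≤ 1 := fun s => inv_le_one_of_one_le₀ (by linarith [(p s).x2])
  have w1 : ∀ s : II, W g g' z.2.1 (xr R z.1.re s) ≤ 6 := fun s => by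
    nlinarith [xW_le hg (p s), w0 s, (p s).x2]
  have k : ∀ {f0 f : ℝ → ℝ} {u : Wi (om ℓ)}, WB R z.1.re f0 f u M → (∀ s : II, 0 < f0 (xr R z.1.re s)) →
      (∀ s : II, 0 < f (xr R z.1.re s)) → (∀ s : II, f0 (xr R z.1.re s) ≤ 6) →
      (∀ s : II, f (xr R z.1.re s) ≤ 6) → ‖u‖ ≤ 6 * M := fun h a b c d =>
    wb_one_iff.1 (h.wt a b (X' := z.1.re) (by norm_num) (by simpa using c) (by simpa using d))
  have hM : 0 ≤ M := hJ.b3.nonneg (fun _ => one_pos) w0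
  refine (pi_norm_le_iff_of_nonneg (by positivity)).2 fun i => ?_
  fin_cases i
  · exact k hJ.b0 (fun s => (p s).rho_pos) w0 (fun s => (p s).rho_le_one.trans (by norm_num)) w1
  · exact k hJ.b1 (fun s => inv_pos.2 (x0 s)) (fun s => div_pos (w0 s) (mul_pos (x0 s) (n0 s)))
      (fun s => (x1 s).trans (by norm_num)) fun s => ((p s).W_div_le b1 b2 b3).trans (by
        linarith [x1 s])
  · refine k hJ.b2 (fun _ => one_pos) (fun s => div_pos (w0 s) (n0 s)) (fun _ => by norm_num)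
      fun s => ?_
    rw [div_le_iff₀ (n0 s)]
    nlinarith [(p s).W_le_sq b1 b2 b3, (p s).norm_le, n0 s]
  · exact k hJ.b3 (fun _ => one_pos) w0 (fun _ => by norm_num) w1
  · exact k hJ.b4 (fun _ => one_pos) (fun s => mul_pos (x0 s) (w0 s)) (fun _ => by norm_num)
      fun s => xW_le hg (p s)
  · exact k hJ.b5 (fun _ => one_pos) w0 (fun _ => by norm_num) w1

/-! ### the easy regime `|a| X² ≤ 1/2` -/

theorem et_near {x : ℝ} (h2 : 2 ≤ x) (hx : x ≤ X) (ha : ‖a‖ * X ^ 2 ≤ 1 / 2) :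
    3 / 4 ≤ (et a x).re ∧ 3 / 4 ≤ ‖et a x‖ ∧ ‖et a x‖ ≤ 5 / 4 := by
  have h1 : ‖et a x - 1‖ ≤ 1 / 4 := by
    have e : et a x - 1 = a * (((x ^ 2 - 2) / 2 : ℝ) : ℂ) := by rw [et]; push_cast; ring
    rw [e, norm_mul, norm_real, Real.norm_of_nonneg (by nlinarith)]
    nlinarith [norm_nonneg a, mul_le_mul_of_nonneg_left (pow_le_pow_left₀ (by linarith) hx 2)
      (norm_nonneg a)]
  have h3 := (abs_re_le_norm _).trans h1
  rw [sub_re, one_re, abs_le] at h3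
  have h4 := norm_add_le (et a x - 1) 1
  rw [sub_add_cancel, norm_one] at h4
  exact ⟨by linarith, le_trans (by linarith) (re_le_norm _), by linarith⟩

theorem W_ge {x : ℝ} (hg : Ex g g') (h2 : 2 ≤ x) (hx : x ≤ X) (ha : ‖a‖ * X ^ 2 ≤ 1 / 2) :
    x ^ (-g) / 2 ≤ W g g' a x := by
  obtain ⟨b1, b2, b3⟩ := Rg.Ex.bounds hg
  have h1 : (1 / 2 : ℝ) ≤ ‖et a x‖ ^ g' :=
    calc (1 / 2 : ℝ) ≤ (3 / 4 : ℝ) ^ (2 : ℝ) := by rw [Real.rpow_two]; norm_num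
      _ ≤ (3 / 4 : ℝ) ^ g' := Real.rpow_le_rpow_of_exponent_ge (by norm_num) (by norm_num) b3
      _ ≤ _ := Real.rpow_le_rpow (by norm_num) (et_near h2 hx ha).2.1 (by linarith)
  have : 0 ≤ x ^ (-g) := by positivity
  rw [W]; nlinarith

/-- size of the far data in the easy regime -/
def fn (g X : ℝ) (D : Dat ℓ) : ℝ :=
  X * ‖Wi.co D.2.1 0‖ +
    3 * X ^ g * (X * ‖D.2.1 - Wi.single _ 0 (Wi.co D.2.1 0)‖ + ‖D.2.2.1‖ + ‖D.2.2.2‖)

theorem fn_nonneg (hX : 0 ≤ X) (D : Dat ℓ) : 0 ≤ fn g X D := by unfold fn; positivity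

theorem dom_of (hg : Ex g g') (hR : 0 ≤ R) (hK : 0 ≤ K) (h1 : 2 * R + 4 < X) (h2 : 2 * √K < X)
    (ha : ‖a‖ * X ^ 2 ≤ 1 / 2) {D : Dat ℓ} (hD : R ^ g * ‖D.1‖ + fn g X D < ε) :
    ((X : ℂ), a, D) ∈ Dom R K g g' ε := by
  have hX : 0 < X := by linarith
  refine ⟨h1, h2, by simpa using hX, ?_, lt_of_le_of_lt ?_ hD⟩
  · show ‖a * (X : ℝ) ^ 2 / 2 - 1 / 8‖ + 2 * K / X ^ 2 < 9 / 8
    have h3 := norm_sub_le (a * (X : ℝ) ^ 2 / 2) (1 / 8)
    have h4 : 4 * K < X ^ 2 := by nlinarith [Real.sq_sqrt hK, Real.sqrt_nonneg K]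
    have h5 : 2 * K / X ^ 2 < 1 / 2 := by rw [div_lt_iff₀ (by positivity)]; linarith
    simp only [norm_div, norm_mul, norm_pow, norm_real, Real.norm_eq_abs, sq_abs, Complex.norm_ofNat,
      norm_one] at h3
    linarith
  · show dn R g g' X a D ≤ _
    rw [dn, fn, add_assoc]
    have h3 := W_ge hg (x := X) (by linarith) le_rfl ha
    have h4 := (et_near (x := X) (by linarith) le_rfl ha).1
    have h5 : 0 < X ^ (-g) := by positivity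
    have h6 : X ^ g * X ^ (-g) = 1 := by rw [← Real.rpow_add hX]; simp
    have h7 : X ^ (-g) / 3 ≤ W g g' a X * (et a X).re := by nlinarith
    gcongr
    rw [div_le_iff₀ (by linarith)]
    have h8 : 0 ≤ X * ‖D.2.1 - Wi.single _ 0 (Wi.co D.2.1 0)‖ + ‖D.2.2.1‖ + ‖D.2.2.2‖ := by positivity
    have h9 : 0 < X ^ g := by positivity
    nlinarith [mul_le_mul_of_nonneg_left h7 (mul_nonneg h9.le h8)]

theorem fn_smul (b b' : Wi (omP 2)) (F : Wi (omF ℓ) × ℂ × ℂ) (t : ℂ) :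
    fn g X ((b, t • F) : Dat ℓ) = ‖t‖ * fn g X (b', F) := by
  have e : t • F.1 - Wi.single _ 0 (Wi.co (t • F.1) 0) = t • (F.1 - Wi.single _ 0 (Wi.co F.1 0)) :=
    Wi.ext fun m => by
      simp only [Wi.co_sub, Wi.co_smul, Wi.co_single]; split_ifs <;> simp [mul_sub]
  simp only [fn, Prod.smul_fst, Prod.smul_snd]
  rw [e]
  simp only [Wi.co_smul, norm_smul]
  ring

/-- **Schwarz lemma**: small `a` and small far data change the solution little -/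
theorem schwarz {U : Par ℓ → Jt ℓ} (hU : IsEnd R K g g' ε ε1 C ℓ U) (hg : Ex g g') (hR : 2 ≤ R)
    (hK : 1 ≤ K) (hC : 0 ≤ C) (h0 : C * (3 / K + ε) ≤ ε1) (h1 : 2 * R + 4 < X) (h2 : 2 * √K < X)
    {b : Wi (omP 2)} (hb : R ^ g * ‖b‖ < ε / 2) {F : Wi (omF ℓ) × ℂ × ℂ} {ρ : ℝ} (hρ : 1 < ρ)
    (ha : ρ * (‖a‖ * X ^ 2) ≤ 1 / 2) (hF : ρ * fn g X (b, F) ≤ ε / 2) :
    ‖U (X, a, b, F) - U (X, 0, b, 0)‖ ≤ 12 * ε1 / ρ := by
  have hX : 0 < X := by linarith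
  have hm : ∀ t ∈ ball (0 : ℂ) ρ, ((X : ℂ), t • a, b, t • F) ∈ Dom R K g g' ε := fun t ht => by
    rw [mem_ball_zero_iff] at ht
    refine dom_of hg (by linarith) (by linarith) h1 h2 ?_ ?_
    · rw [norm_smul, mul_assoc]
      exact (mul_le_mul_of_nonneg_right ht.le (by positivity)).trans ha
    · rw [fn_smul b b]
      linarith [mul_le_mul_of_nonneg_right ht.le (fn_nonneg (g := g) hX.le (b, F))]
  have := H.lip_le (f := fun t : ℂ => U (X, t • a, b, t • F)) (c := 0) (z := 1) (r := ρ)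
    (M := 6 * ε1) (hU.hol.comp (f := fun t : ℂ => (((X : ℂ), t • a, b, t • F) : Par ℓ))
      (by fun_prop) hm)
    (fun t ht => inB_norm hg hR hK (hm t ht) (Cj.inB_of hU (by linarith) hC h0 (hm t ht)))
    (by simpa using hρ)
  simp only [one_smul, zero_smul, sub_zero, norm_one, mul_one] at this
  exact this.trans (le_of_eq (by ring))

end Crest.Agent.N250.S9

end
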