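import Crest.Agent.N250.S9.Idt
import Crest.Agent.N250.R0.Leaf
import Crest.Agent.N250.Se.Dic

/-!
Row 250 (helper94): the identification of the ends in the setting `R0.St`.
-/

set_option autoImplicit false
open Set Complex Metric Filter Topology

noncomputable section

namespace Crest.Agent.N250.R0.St

open B1

variable {S : Mv}

theorem vS_S9 (T : St S) (j : Fin T.p) (q : ℝ × ℝ) : T.vS j q = (S9.vS T.e j q : ℝ) := by
  simp [vS, rS, S9.vS]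

theorem jS_zero (T : St S) (j : Fin T.p) (q : ℝ × ℝ) : S9.jS T.e j q 0 = T.vS j q :=
  (T.vS_S9 j q).symm

theorem b0_eq (T : St S) (j : Fin T.p) : T.b0 j = S9.b0 T.e j T.R := by
  rw [S9.b0_eq_four, b0]; simp only [vS_S9]

theorem cj_b0 (T : St S) (j : Fin T.p) : Wi.cj (T.b0 j) = T.b0 j := by
  rw [b0_eq]; exact S9.cj_b0 _ _ (by linarith [T.hR])

/-- the identification holds in the setting `T` -/
def Id (T : St S) (j : Fin T.p) : Prop := Ce.Idt T.ℓ T.R T.k.K1 T.k.ε T.U (T.b0 j) (S9.jS T.e j)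

/-- **for large inner radius the datum is small and the end of `S` is identified** -/
theorem idt_ev (e : Ends S) (k : Cst) {t : ℝ} (ht : 0 < t) : ∃ R1, ∀ T : St S, T.P.e = e → T.k = k →
    R1 ≤ T.R → ∀ j, T.R ^ (13 / 8 : ℝ) * ‖T.b0 j‖ < min t (T.k.ε / 2) ∧ T.Id j := by
  by_cases hS : S.IsShr
  swap
  · exact ⟨0, fun T => (hS T.P.shr).elim⟩
  have h0 : 0 < k.C * (3 / k.K1 + k.ε) := by
    have := k.C_pos; have := k.K1_ge; have := k.ε_pos; positivity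
  have h1 := k.small
  obtain ⟨R1, h⟩ := eventually_atTop.1 (eventually_all.2 fun j =>
    (S9.ident hS e j Ce.ex0 k.ε_pos (ε1 := k.ε1) (by linarith) k.C_pos.le).and
      (S9.b0_le hS e j (g := 13 / 8) (by norm_num) ht))
  refine ⟨R1, fun T he hk hR j => ?_⟩
  subst he hk
  obtain ⟨⟨h2, h3⟩, h4⟩ := h _ hR j
  rw [Id, b0_eq]
  refine ⟨lt_min h4 h2, fun t ht => ?_⟩
  obtain ⟨δ, hδ, h5⟩ := h3 _ T.k.K1_ge (by linarith) _ _ _ T.hU T.hU0 t ht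
  obtain ⟨X0, h5⟩ := eventually_atTop.1 h5
  exact ⟨δ, X0, hδ, h5⟩

variable {T : St S} {j : Fin T.p}

theorem Good.id (h : T.Good) (j : Fin T.p) : T.Id j := fun t ht => by
  obtain ⟨δ, hδ, h5⟩ := h.idn j t ht
  obtain ⟨X0, h5⟩ := eventually_atTop.1 h5
  exact ⟨δ, X0, hδ, h5⟩

theorem Id.idn (h : T.Id j) (t : ℝ) (ht : 0 < t) : ∃ δ > 0, ∀ᶠ X : ℝ in atTop, ∀ a h : ℂ,
    ‖a‖ * X ^ 2 ≤ δ → X * ‖h‖ ≤ δ → ((X : ℂ), a, wd (T.b0 j) h) ∈ T.Dm ∧ ∀ s θ i,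
      ‖vj T.R X a (T.U ((X : ℂ), a, wd (T.b0 j) h)) s θ i - S9.jS T.e j (xr T.R X s, θ) i‖ ≤ t := by
  obtain ⟨δ, X0, hδ, h⟩ := h t ht
  exact ⟨δ, hδ, eventually_atTop.2 ⟨X0, h⟩⟩

/-- uniform closeness of the values on the strip -/
theorem Id.strip (h : T.Id j) {t : ℝ} (ht : 0 < t) : ∀ᶠ X : ℝ in atTop, ∀ y : ℝ × ℝ,
    y.1 ∈ Icc T.R (T.R + 1) → ‖T.vU (T.zz j X 0 0 0) y - T.vS j y‖ ≤ t := by
  obtain ⟨δ, X0, hδ, h⟩ := h t ht
  filter_upwards [eventually_ge_atTop X0] with X x1 y hy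
  have := (h X x1 0 0 (by simpa using hδ.le) (by simpa using hδ.le)).2 (tS T.R y.1) y.2 0
  rw [xr_tS X hy, jS_zero] at this
  rw [zz, add_zero]
  exact this

/-- the limit at a point of the end -/
theorem Id.lim (h : T.Id j) {q : ℝ × ℝ} (hq : T.R ≤ q.1) :
    Tendsto (fun X : ℝ => vX T.R X 0 (T.U ((X : ℂ), 0, wd (T.b0 j + 0) 0)) q) atTop
      (𝓝 (T.vS j q)) := by
  rw [add_zero, vS_S9]; exact S9.Idt.lim_vX T.e j h hq

end Crest.Agent.N250.R0.St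

end
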