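import Crest.Agent.N250.S9.Cast
import Crest.Agent.N250.Ra.Dx

/-!
Row 250 (helper94): a decaying solution on a half cylinder as a jet of the end solver.
-/

set_option autoImplicit false
open Set Complex Metric

noncomputable section

namespace Crest.Agent.N250.S9

open B1 Ra

/-- the six jets -/
def jw (w : ℝ × ℝ → ℝ) : Fin 6 → ℝ × ℝ → ℝ :=
  ![w, dd (1, 0) w, dd (1, 0) (dd (1, 0) w), dd (0, 1) w, dd (1, 0) (dd (0, 1) w),
    dd (0, 1) (dd (0, 1) w)]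

/-- `v = 1 + w` solves the equation and decays -/
structure Rt (w : ℝ × ℝ → ℝ) (x₀ C γ : ℝ) : Prop where
  sm : Sm x₀ w
  per : Per w
  C0 : 0 ≤ C
  γ0 : 0 ≤ γ
  j0 : ∀ i ≤ 4, ∀ q : ℝ × ℝ, x₀ < q.1 → ‖iteratedFDeriv ℝ i w q‖ ≤ C * q.1 ^ (-γ)
  j1 : ∀ i ≤ 4, ∀ q : ℝ × ℝ, x₀ < q.1 →
    ‖iteratedFDeriv ℝ i (fun q : ℝ × ℝ => q.1 * dd (1, 0) w q) q‖ ≤ C * q.1 ^ (-γ)
  eq : ∀ q : ℝ × ℝ, x₀ < q.1 →
    Po.EL q.1 (1 + w q) (jw w 1 q) (jw w 3 q) (jw w 2 q) (jw w 4 q) (jw w 5 q) = 0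

variable {w f : ℝ × ℝ → ℝ} {x₀ C γ x R X M K g g' : ℝ}

theorem decay (hf : Sm x₀ f) (hp : Per f) (hx : x₀ < x) (k : ℕ)
    (h : ∀ j ≤ k + 2, ∀ θ, ‖iteratedFDeriv ℝ j f (x, θ)‖ ≤ M) (m : ℤ) :
    (1 + |(m : ℝ)|) ^ k * ‖fc (cs f x) m‖ ≤ 2 ^ (k + 2) * M * maj m := by
  have h1 := Sm.fc_decay hx m (k + 2) hf hp h
  have h2 : 1 + (m : ℝ) ^ 2 ≤ (1 + |(m : ℝ)|) ^ 2 := by nlinarith [abs_nonneg (m : ℝ), sq_abs (m : ℝ)]
  rw [maj, mul_one_div, le_div_iff₀ (by positivity)]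
  refine le_trans ?_ h1
  rw [pow_add, mul_right_comm]
  gcongr

theorem maj_zero : maj 0 = 1 := by simp [maj]

/-- the jets of `(x² - 2) / 2` -/
def pj (x : ℂ) : Fin 6 → ℂ := ![(x ^ 2 - 2) / 2, x, 1, 0, 0, 0]

theorem pj_le (hx : 2 ≤ x) (i : Fin 6) : ‖pj x i‖ ≤ x ^ 2 := by
  fin_cases i <;> simp [pj]
  · have e : (x : ℂ) ^ 2 - 2 = ((x ^ 2 - 2 : ℝ) : ℂ) := by push_cast; ring
    rw [e, norm_real, Real.norm_of_nonneg (by nlinarith)]; nlinarith
  · rw [abs_of_nonneg (by linarith)]; nlinarith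
  · exact le_trans (by linarith) (le_abs_self x)
  all_goals positivity

theorem vj_eq {ℓ : Ell} (X a : ℂ) (J : Jt ℓ) (s : II) (θ : ℝ) (i : Fin 6) :
    vj R X a J s θ i = (if i = 0 then 1 else 0) + a * pj (gam R X s) i + val (J i) s θ := by
  fin_cases i <;> simp [vj, pj, et]
  ring

/-- the far parameter -/
def aS (w : ℝ × ℝ → ℝ) (X : ℝ) : ℂ := fc (cs w X) 0 / (((X : ℂ) ^ 2 - 2) / 2)

/-- the coefficients of the jet -/
def cf (w : ℝ × ℝ → ℝ) (X : ℝ) (i : Fin 6) (m : ℤ) (x : ℝ) : ℂ :=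
  fc (cs (jw w i) x) m - if m = 0 then aS w X * pj x i else 0

theorem cf_ne {m : ℤ} (hm : m ≠ 0) (i : Fin 6) : cf w X i m x = fc (cs (jw w i) x) m := by
  simp [cf, hm]

namespace Rt

variable (h : Rt w x₀ C γ)
include h

theorem sm_jw (i : Fin 6) : Sm x₀ (jw w i) := by
  fin_cases i
  exacts [h.sm, h.sm.dd _, (h.sm.dd _).dd _, h.sm.dd _, (h.sm.dd _).dd _, (h.sm.dd _).dd _]

theorem per_jw (i : Fin 6) : Per (jw w i) := by
  fin_cases i
  exacts [h.per, h.per.dd _, (h.per.dd _).dd _, h.per.dd _, (h.per.dd _).dd _, (h.per.dd _).dd _]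

theorem jw_le (i : Fin 6) {j : ℕ} (hj : j ≤ 2) {q : ℝ × ℝ} (hq : x₀ < q.1) :
    ‖iteratedFDeriv ℝ j (jw w i) q‖ ≤ C * q.1 ^ (-γ) := by
  have a := h.sm q hq
  have k1 := fun u hu => (norm_dd a u hu j).trans (h.j0 _ (by omega) q hq)
  have k2 := fun u v hu hv => ((norm_dd (sm_dd a v) u hu j).trans (norm_dd a v hv _)).trans
    (h.j0 _ (by omega) q hq)
  fin_cases i
  exacts [h.j0 _ (by omega) q hq, k1 _ n10, k2 _ _ n10 n10, k1 _ n01, k2 _ _ n10 n01, k2 _ _ n01 n01]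

theorem m0 (hx : x₀ < x) (i : Fin 6) (m : ℤ) :
    ‖fc (cs (jw w i) x) m‖ ≤ 4 * (C * x ^ (-γ)) * maj m := by
  have := decay (M := C * x ^ (-γ)) (h.sm_jw i) (h.per_jw i) hx 0 (fun j hj θ => h.jw_le i hj (q := (x, θ)) hx) m
  norm_num at this ⊢; exact this

theorem m1 (hx : x₀ < x) (h0 : 0 ≤ x) (m : ℤ) :
    x * ((1 + |(m : ℝ)|) * ‖fc (cs (jw w 1) x) m‖) ≤ 8 * (C * x ^ (-γ)) * maj m := by
  have := decay (M := C * x ^ (-γ)) (f := fun q : ℝ × ℝ => q.1 * dd (1, 0) w q)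
    (fun q hq => contDiffAt_fst.mul (h.sm.dd _ q hq))
    (fun s θ => by simp only [h.per.dd (1, 0) s θ]) hx 1
    (fun j hj θ => h.j1 j (by omega) (x, θ) hx) m
  have e : cs (fun q : ℝ × ℝ => q.1 * dd (1, 0) w q) x = fun θ => (x : ℂ) * cs (jw w 1) x θ := by
    funext θ; simp [cs, jw]
  rw [e, fc_mul, norm_mul, norm_real, Real.norm_of_nonneg h0] at this
  norm_num at this ⊢; linarith

theorem m2 (hx : x₀ < x) (m : ℤ) :
    (1 + |(m : ℝ)|) ^ 2 * ‖fc (cs w x) m‖ ≤ 16 * (C * x ^ (-γ)) * maj m := by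
  have := decay (M := C * x ^ (-γ)) h.sm h.per hx 2 (fun j hj θ => h.j0 j hj (x, θ) hx) m
  norm_num at this ⊢; exact this

theorem aS_le (hX : x₀ < X) (h2 : 2 ≤ X) : ‖aS w X‖ * X ^ 2 ≤ 16 * (C * X ^ (-γ)) := by
  have h1 := h.m0 hX 0 0
  have e : ((X : ℂ) ^ 2 - 2) / 2 = (((X ^ 2 - 2) / 2 : ℝ) : ℂ) := by push_cast; ring
  have h3 : 0 < (X ^ 2 - 2) / 2 := by nlinarith
  rw [maj_zero, mul_one] at h1
  rw [aS, e, norm_div, norm_real, Real.norm_of_nonneg h3.le, div_mul_eq_mul_div, div_le_iff₀ h3]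
  have h4 : 0 ≤ C * X ^ (-γ) := by have := h.C0; positivity
  have h5 : ‖fc (cs w X) 0‖ * X ^ 2 ≤ 4 * (C * X ^ (-γ)) * X ^ 2 :=
    mul_le_mul_of_nonneg_right h1 (by positivity)
  nlinarith [mul_nonneg h4 (show 0 ≤ X ^ 2 - 4 by nlinarith)]

theorem pw_le (hx : 1 ≤ x) : C * x ^ (-γ) ≤ C :=
  mul_le_of_le_one_right h.C0 (Real.rpow_le_one_of_one_le_of_nonpos hx (by linarith [h.γ0]))

theorem d0 (hx : x₀ < x) (m : ℤ) : HasDerivAt (cf w X 0 m) (cf w X 1 m x) x := by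
  refine (h.sm.fc_dx hx m).sub ?_
  split_ifs
  · have := (((hasDerivAt_pow 2 (x : ℂ)).sub_const 2).div_const 2).comp_ofReal.const_mul (aS w X)
    simpa [pj] using this
  · exact hasDerivAt_const _ _

theorem d1 (hx : x₀ < x) (m : ℤ) : HasDerivAt (cf w X 1 m) (cf w X 2 m x) x := by
  refine ((h.sm.dd _).fc_dx hx m).sub ?_
  split_ifs
  · simpa [pj] using (hasDerivAt_id (x : ℂ)).comp_ofReal.const_mul (aS w X)
  · exact hasDerivAt_const _ _

theorem cont (hR : x₀ < R) (i : Fin 6) (m : ℤ) : ContinuousOn (cf w X i m) (Icc R X) := fun x hx => by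
  refine (((h.sm_jw i).fc_dx (hR.trans_le hx.1) m).continuousAt.sub ?_).continuousWithinAt
  split_ifs
  · fin_cases i <;> simp only [pj] <;> simp <;> fun_prop
  · exact continuousAt_const

theorem cf_crude (hR : x₀ < R) (h2 : 2 ≤ R) (hx : x ∈ Icc R X) (i : Fin 6) (m : ℤ) :
    ‖cf w X i m x‖ ≤ (4 * C + ‖aS w X‖ * X ^ 2) * maj m := by
  have h1 := h.m0 (hR.trans_le hx.1) i m
  have h3 := h.pw_le (x := x) (by linarith [hx.1])
  have h4 := maj_pos m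
  refine (norm_sub_le _ _).trans ?_
  rw [add_mul]
  refine add_le_add (h1.trans (by gcongr)) ?_
  split_ifs with hm
  · rw [hm, maj_zero, mul_one, norm_mul]
    exact mul_le_mul_of_nonneg_left ((pj_le (h2.trans hx.1) i).trans
      (pow_le_pow_left₀ (by linarith [hx.1]) hx.2 2)) (norm_nonneg _)
  · rw [norm_zero]; positivity

theorem exists_J (hR : x₀ < R) (h2 : 2 ≤ R) (hX : R + 2 ≤ X) :
    ∃ J : Jt Ell.triv, ∀ i m s, Wi.co (J i) m s = cf w X i m (xr R X s) := by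
  refine ⟨fun i => Wi.mk _ (fun m => cx hX _ (h.cont hR i m)) ?_, fun i m s => by simp⟩
  refine .of_nonneg_of_le (fun _ => norm_nonneg _) (fun m => ?_)
    (summable_maj.mul_left (4 * C + ‖aS w X‖ * X ^ 2))
  have := h.C0
  have := maj_pos m
  refine (ContinuousMap.norm_le _ (by positivity)).2 fun s => ?_
  rw [norm_w_mul]
  simpa [Ell.triv] using h.cf_crude hR h2 (xr_mem' hX s) i m

theorem far_le (hX : x₀ < X) (h2 : 2 ≤ X) {m : ℤ} (hm : m ≠ 0) :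
    ‖(omF Ell.triv).w m * cf w X 1 m X‖ ≤ 8 * (C * X ^ (-γ)) / X * maj m := by
  rw [cf_ne hm, omF_w, norm_mul, norm_real, Real.norm_of_nonneg (by positivity), div_mul_eq_mul_div,
    le_div_iff₀ (by linarith), mul_comm]
  simpa [Ell.triv] using h.m1 hX (by linarith) m

theorem exists_H (hX : x₀ < X) (h2 : 2 ≤ X) :
    ∃ H : Wi (omF Ell.triv), ∀ m, Wi.co H m = cf w X 1 m X := by
  refine ⟨Wi.mk _ (fun m => cf w X 1 m X) ?_, fun m => Wi.co_mk _ _ _⟩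
  refine .of_norm_bounded_eventually (summable_maj.mul_left (8 * (C * X ^ (-γ)) / X)) ?_
  filter_upwards [Filter.eventually_cofinite_ne 0] with m hm
  rw [norm_norm]; exact h.far_le hX h2 hm

theorem sum_b (hR : x₀ < R) : Summable fun m => ‖(omP 2).w m * fc (cs w R) m‖ := by
  refine .of_nonneg_of_le (fun _ => norm_nonneg _) (fun m => ?_)
    (summable_maj.mul_left (16 * (C * R ^ (-γ))))
  rw [omP_w, norm_mul, norm_real, Real.norm_of_nonneg (by positivity)]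
  exact h.m2 hR m

theorem b_le (hR : x₀ < R) {b : Wi (omP 2)} (hb : ∀ m, Wi.co b m = fc (cs w R) m) :
    ‖b‖ ≤ 16 * (C * R ^ (-γ)) * ∑' m, maj m :=
  Wi.norm_le_of (summable_maj.hasSum.mul_left _) fun m => by
    rw [hb, omP_w, norm_mul, norm_real, Real.norm_of_nonneg (by positivity)]
    exact h.m2 hR m

variable {J : Jt Ell.triv}

theorem val_J (hR : x₀ < R) (hX : R + 2 ≤ X) (hJ : ∀ i m s, Wi.co (J i) m s = cf w X i m (xr R X s))
    (i : Fin 6) (s : II) (θ : ℝ) :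
    val (J i) s θ = jw w i (xr R X s, θ) - aS w X * pj (xr R X s : ℝ) i := by
  have hx := hR.trans_le (xr_mem' hX s).1
  have h1 := fc_hasSum ((h.per_jw i).cs _) ((h.sm_jw i).cont hx)
    (.of_norm_bounded (summable_maj.mul_left _) (h.m0 hx i)) θ
  have e : (fun m => Wi.ex m θ * Wi.co (J i) m s) = fun m => fc (cs (jw w i) (xr R X s)) m *
      Wi.ex m θ - if m = 0 then aS w X * pj (xr R X s : ℝ) i else 0 := by
    funext m
    rw [hJ, cf]
    split_ifs with hm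
    · simp [hm]
    · ring
  exact (e ▸ Rg.hasSum_val _ s θ).unique (h1.sub (hasSum_ite_eq 0 _))

theorem isJet (hR : x₀ < R) (hX : R + 2 ≤ X)
    (hJ : ∀ i m s, Wi.co (J i) m s = cf w X i m (xr R X s)) : IsJet (dgam R X) J := by
  have hx := fun s => hR.trans_le (xr_mem' hX s).1
  have t0 := fun s m => h.sm.fc_dt h.per (hx s) m
  refine ⟨fun m => der_of_dv hX (fun x hx => (h.d0 (hR.trans_le hx.1) m).hasDerivWithinAt) (hJ 0 m)
    (hJ 1 m), fun m => der_of_dv hX (fun x hx => (h.d1 (hR.trans_le hx.1) m).hasDerivWithinAt)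
    (hJ 1 m) (hJ 2 m), fun m => ?_, fun m => ?_, fun m => ?_⟩ <;> ext s <;>
    simp only [ContinuousMap.smul_apply, hJ, cf, smul_eq_mul]
  · have := t0 s m
    by_cases hm : m = 0 <;> simp_all [jw, pj]
  · have h1 := (h.sm.dd (1, 0)).fc_dt (h.per.dd _) (hx s) m
    have e : cs (dd (0, 1) (dd (1, 0) w)) (xr R X s) = cs (dd (1, 0) (dd (0, 1) w)) (xr R X s) :=
      funext fun θ => congrArg ofReal (Po.d21 ((h.sm (_, θ) (hx s)).of_le (by norm_cast)))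
    rw [e] at h1
    by_cases hm : m = 0 <;> simp_all [jw, pj]
  · have h1 := (h.sm.dd (0, 1)).fc_dt (h.per.dd _) (hx s) m
    rw [t0] at h1
    have e : (m : ℂ) * I * (m * I * fc (cs w (xr R X s)) m) = -(m : ℂ) ^ 2 * fc (cs w (xr R X s)) m := by
      linear_combination (m : ℂ) ^ 2 * fc (cs w (xr R X s)) m * I_sq
    rw [e] at h1
    by_cases hm : m = 0 <;> simp_all [jw, pj]

theorem vj_J (hR : x₀ < R) (hX : R + 2 ≤ X) (hJ : ∀ i m s, Wi.co (J i) m s = cf w X i m (xr R X s))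
    (s : II) (θ : ℝ) (i : Fin 6) :
    vj R X (aS w X) J s θ i = (if i = 0 then 1 else 0) + jw w i (xr R X s, θ) := by
  rw [vj_eq, h.val_J hR hX hJ, gam_real]; ring

theorem sol (hR : x₀ < R) (h2 : 2 ≤ R) (hX : R + 2 ≤ X)
    (hJ : ∀ i m s, Wi.co (J i) m s = cf w X i m (xr R X s)) {b : Wi (omP 2)}
    (hb : ∀ m, Wi.co b m = fc (cs w R) m) {H : Wi (omF Ell.triv)}
    (hH : ∀ m, Wi.co H m = cf w X 1 m X) :
    Sol R ((X : ℂ), aS w X, b, H, fc (cs w X) 1, fc (cs w X) (-1)) J where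
  jet := h.isJet hR hX hJ
  bc := by
    refine ⟨fun m hm => ?_, fun m => ?_, ?_, ?_, ?_⟩ <;> simp only [hJ, xr_i0, xr_i1]
    · rw [cf_ne (by rintro rfl; simp at hm), hb]; rfl
    · rw [hH]
    · have : ((X : ℂ) ^ 2 - 2) / 2 ≠ 0 := by
        have : (X ^ 2 - 2) / 2 ≠ 0 := by nlinarith
        exact_mod_cast this
      simp only [cf, aS, if_true, pj, jw, Matrix.cons_val_zero]
      rw [div_mul_cancel₀ _ this, sub_self]
    · exact cf_ne one_ne_zero 0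
    · exact cf_ne (by decide) 0
  eq s θ := by
    have := congrArg ofReal (h.eq (xr R X s, θ) (hR.trans_le (xr_mem' hX s).1))
    simp only [h.vj_J hR hX hJ, gam_real]
    simpa [Po.EL, Po.QQ, jw] using this

end Rt

end Crest.Agent.N250.S9

end
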